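import Vale.Agent.Lib.P307.Main

namespace Vale.Agent.Results.P307.UnaryTransfer

open Cardinal Vale.Agent.Lib.P307

universe u

/-- Shelah's eventual categoricity conjecture for abstract elementary classes in purely unary
vocabularies, in ZFC, with the threshold `μ(l) = (2 ^ l)⁺`. -/
theorem result {τ : Type u} (K : UAEC τ) (l : Cardinal.{u}) (hLS : K.HasLS l)
    (κ κ' : Cardinal.{u}) (hκ : Order.succ ((2 : Cardinal.{u}) ^ l) ≤ κ)
    (hκ' : Order.succ ((2 : Cardinal.{u}) ^ l) ≤ κ') (hcat : K.Categorical κ) :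
    K.Categorical κ' :=
  main_transfer K hLS hκ hκ' hcat

end Vale.Agent.Results.P307.UnaryTransfer
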